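import Crest.Agent.R195.SmallDefs

/-! Row 195 (helper44): base triples for the small-`n` certificates (generated data). -/

set_option autoImplicit false
set_option maxRecDepth 100000

namespace Crest.Agent.R195.Small

def entries : List ((List T3 × List T3) ⊕ ℕ) := [
  Sum.inl ([], []), Sum.inl ([(0,0,0)], [(0,0,0)]), Sum.inr 0x100600060, Sum.inr 0x100c40060,
  Sum.inr 0x100f00060, Sum.inl ([(1,0,1),(0,0,0),(0,1,0)], [(0,0,0),(1,1,1)]),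
  Sum.inr 0x101240060, Sum.inr 0x101840060, Sum.inr 0x100f000f0, Sum.inr 0x101b00060,
  Sum.inr 0x101e00060, Sum.inr 0x100f000e0,
  Sum.inl ([(1,1,0),(1,1,1),(0,0,0),(0,0,1)], [(0,0,1),(1,1,0)]), Sum.inr 0x102440060,
  Sum.inr 0x102a40060, Sum.inr 0x103040060, Sum.inr 0x102a80060, Sum.inr 0x103c40060,
  Sum.inr 0x104240060, Sum.inr 0x103640060, Sum.inr 0x303000060, Sum.inr 0x101e000f0,
  Sum.inr 0x104480060, Sum.inr 0x103f00060,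
  Sum.inl ([(2,1,0),(1,1,1),(0,0,1),(1,0,0),(0,0,2)], [(0,0,1),(0,2,0),(1,1,0)]),
  Sum.inr 0x104800060, Sum.inr 0x101b000c0, Sum.inr 0x104500060, Sum.inr 0x3600060,
  Sum.inr 0x104e40060, Sum.inr 0x105440060, Sum.inr 0x105a40060, Sum.inr 0x106040060,
  Sum.inr 0x1030400f0, Sum.inr 0x105a80060, Sum.inr 0x106640060, Sum.inr 0x106c40060,
  Sum.inr 0x107240060, Sum.inr 0x107e40060, Sum.inr 0x108440060, Sum.inr 0x1030400e0,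
  Sum.inr 0x107840060, Sum.inr 0x107480060, Sum.inr 0x108a40060, Sum.inr 0x108680060,
  Sum.inr 0x1044800f0, Sum.inr 0x107e80060, Sum.inr 0x109640060, Sum.inr 0x107bc0060,
  Sum.inr 0x109c40060, Sum.inr 0x2031000f0, Sum.inr 0x109200060, Sum.inr 0x1088c0060,
  Sum.inr 0x10a240060, Sum.inr 0x1042800e0, Sum.inr 0x109e80060, Sum.inr 0x1048000f0,
  Sum.inl ([(2,0,1),(1,2,2),(1,1,0),(0,0,1),(3,2,0),(0,1,0)], [(0,0,0),(0,1,2),(1,1,1)]),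
  Sum.inr 0x109900060, Sum.inr 0x108d00060, Sum.inr 0x7200060, Sum.inr 0x101500140,
  Sum.inl ([(3,1,0),(2,0,0),(1,0,1),(0,2,1),(0,0,2),(0,3,2)], [(0,0,1),(0,1,0),(1,2,0),(2,0,0)]),
  Sum.inr 0x10a500060, Sum.inr 0x3030000f0, Sum.inr 0x1044000f0, Sum.inr 0x7800060,
  Sum.inl ([(1,1,0),(1,0,0),(1,1,1),(0,0,1),(0,1,1),(0,0,0)], [(0,1,2),(1,0,1),(2,2,0)]),
  Sum.inl ([(2,2,0),(2,0,1),(1,0,0),(1,1,2),(0,0,1),(0,1,0)], [(0,1,1),(0,2,2),(1,0,0)]),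
  Sum.inr 0x9080060,
  Sum.inl ([(3,0,2),(2,0,1),(1,0,2),(1,1,0),(0,3,0),(0,0,0),(0,2,1),(0,1,1)], [(0,0,1),(0,2,2),(1,1,0),(2,0,0),(3,3,2)]),
  Sum.inl ([(3,2,2),(2,1,0),(2,2,1),(2,0,3),(1,0,2),(1,3,1),(1,1,3),(0,1,0),(0,2,1),(0,0,0),(0,0,2)], [(0,0,0),(1,2,1),(2,1,2),(3,3,1)]),
  Sum.inl ([(4,2,3),(3,4,2),(2,0,2),(2,0,0),(2,1,0),(1,2,3),(1,0,1),(1,2,0),(0,1,2),(0,0,3),(0,0,1),(0,1,1),(0,3,0)], [(0,0,2),(0,3,3),(1,2,1),(2,1,0),(3,4,1),(4,0,0)]),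
  Sum.inl ([(4,0,1),(3,1,2),(2,4,3),(2,1,2),(2,3,1),(1,0,0),(1,0,1),(1,0,3),(0,1,0),(0,2,2),(0,2,1),(0,2,0),(0,0,0)], [(0,0,3),(0,1,2),(0,4,1),(1,0,0),(2,2,1),(3,3,0),(4,1,2)])]

def base : List Tr := [
  ([],[],[]), ([1],[1],[1]), ([2],[2],[1,1]), ([3],[3],[1,1,1]), ([3],[2,1],[2,1]),
  ([2,1],[2,1],[2,1]), ([4],[4],[1,1,1,1]), ([4],[3,1],[2,1,1]), ([4],[2,2],[2,2]),
  ([3,1],[3,1],[3,1]), ([3,1],[3,1],[2,1,1]), ([3,1],[3,1],[2,2]), ([2,2],[2,2],[2,2]),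
  ([5],[5],[1,1,1,1,1]), ([5],[4,1],[2,1,1,1]), ([5],[3,2],[2,2,1]), ([5],[3,1,1],[3,1,1]),
  ([4,1],[4,1],[2,1,1,1]), ([4,1],[4,1],[2,2,1]), ([4,1],[4,1],[3,1,1]), ([4,1],[3,2],[3,2]),
  ([4,1],[3,2],[2,2,1]), ([4,1],[3,2],[3,1,1]), ([4,1],[3,1,1],[3,1,1]), ([2,2,1],[3,2],[2,2,1]),
  ([3,2],[3,2],[2,2,1]), ([3,2],[3,2],[3,1,1]), ([3,2],[3,1,1],[3,1,1]),
  ([3,1,1],[3,1,1],[3,1,1]), ([6],[6],[1,1,1,1,1,1]), ([6],[5,1],[2,1,1,1,1]),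
  ([6],[4,2],[2,2,1,1]), ([6],[4,1,1],[3,1,1,1]), ([6],[3,3],[2,2,2]), ([6],[3,2,1],[3,2,1]),
  ([5,1],[5,1],[2,1,1,1,1]), ([5,1],[5,1],[2,2,1,1]), ([5,1],[5,1],[3,1,1,1]),
  ([5,1],[4,2],[2,2,1,1]), ([5,1],[4,2],[3,1,1,1]), ([5,1],[4,2],[2,2,2]), ([5,1],[4,2],[3,2,1]),
  ([5,1],[4,1,1],[4,1,1]), ([5,1],[4,1,1],[3,1,1,1]), ([5,1],[4,1,1],[3,2,1]),
  ([5,1],[3,3],[3,2,1]), ([5,1],[3,2,1],[3,2,1]), ([4,2],[4,2],[2,2,1,1]), ([4,2],[4,2],[4,1,1]),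
  ([4,2],[4,2],[3,1,1,1]), ([4,2],[4,2],[3,3]), ([4,2],[4,2],[3,2,1]), ([4,2],[4,1,1],[4,1,1]),
  ([4,2],[4,1,1],[3,1,1,1]), ([4,2],[4,1,1],[2,2,2]), ([4,2],[4,1,1],[3,2,1]),
  ([4,2],[3,3],[2,2,2]), ([2,2,1,1],[2,2,2],[3,2,1]), ([4,2],[3,2,1],[3,2,1]),
  ([4,1,1],[4,1,1],[4,1,1]), ([4,1,1],[4,1,1],[3,1,1,1]), ([4,1,1],[4,1,1],[3,3]),
  ([3,1,1,1],[3,1,1,1],[2,2,2]), ([4,1,1],[4,1,1],[3,2,1]), ([4,1,1],[3,3],[3,3]),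
  ([4,1,1],[3,3],[3,2,1]), ([4,1,1],[3,2,1],[3,2,1]), ([3,3],[3,3],[3,3]),
  ([2,2,2],[3,2,1],[3,2,1]), ([3,2,1],[3,2,1],[3,2,1]), ([4,2,1,1],[4,2,1,1],[3,3,2]),
  ([4,3,3,1],[4,3,3,1],[3,3,3,2]), ([5,3,3,1,1],[5,3,3,1,1],[4,3,3,3]),
  ([5,3,3,1,1],[5,3,3,1,1],[4,4,3,2])]

theorem base_eq : build [] entries = base := by decide +kernel

theorem API.base {K : List ℕ → List ℕ → List ℕ → Prop} (H : API K) : ∀ t ∈ base, KT K t := by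
  rw [← base_eq]; exact H.build entries (by simp)

end Crest.Agent.R195.Small
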